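import Mathlib
import Vale.Agent.Lib.P328.helper74.ChainDefs
import Vale.Agent.Lib.P328.helper24.Window

/-!
P328: the column step for the level sequences of a box (independent proof).

`Lor m w l q` (see `helper74/ChainDefs.lean`) is preserved when a column of capacity `C` and
weight `t` is added.  The proof applies the window lemma (`helper24/Window.lean`) to the part of
the window `[r - C, r]` that lies in the support `[0, m]`; the levels `-1` and `-2` below the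
support contribute a virtual step at the left end of the window.
-/

namespace Vale.Agent.Lib.P328.helper60

open Finset
open Vale.Agent.Lib.P328.helper74

/-- A positive semidefinite binary form has nonpositive discriminant. -/
theorem disc_of_psd {α β γ : ℝ}
    (h : ∀ y z : ℝ, 0 ≤ α * y ^ 2 - 2 * β * y * z + γ * z ^ 2) : β ^ 2 ≤ α * γ := by
  have hα : 0 ≤ α := by
    have := h 1 0
    simpa using this
  by_cases h0 : α = 0
  · have h1 := h ((γ + 1) / 2) β
    rw [h0] at h1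
    rw [h0]
    nlinarith [sq_nonneg β]
  · have hpos : 0 < α := lt_of_le_of_ne hα (Ne.symm h0)
    have h1 := h β α
    by_contra hcon
    have hcon := not_le.mp hcon
    nlinarith [mul_pos hpos (sub_pos.mpr hcon)]

/-- Window sums over `r - k` as interval sums. -/
theorem sum_range_sub (f : ℤ → ℝ) (r : ℤ) (C : ℕ) :
    ∑ k ∈ range (C + 1), f (r - (k : ℤ)) = ∑ ρ ∈ Finset.Icc (r - (C : ℤ)) r, f ρ := by
  refine Finset.sum_bij' (fun k _ => r - (k : ℤ)) (fun ρ _ => (r - ρ).toNat) ?_ ?_ ?_ ?_ ?_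
  · intro k hk
    have := Finset.mem_range.mp hk
    simp only [Finset.mem_Icc]
    constructor <;> omega
  · intro ρ hρ
    simp only [Finset.mem_Icc] at hρ
    simp only [Finset.mem_range]
    omega
  · intro k _
    simp
  · intro ρ hρ
    simp only [Finset.mem_Icc] at hρ
    have : ((r - ρ).toNat : ℤ) = r - ρ := Int.toNat_of_nonneg (by omega)
    rw [this]
    ring
  · intro k _
    rfl

/-- Window sums over `ρ0 + i` as interval sums. -/
theorem sum_range_add (f : ℤ → ℝ) (ρ0 : ℤ) (N : ℕ) :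
    ∑ i ∈ range (N + 1), f (ρ0 + (i : ℤ)) = ∑ ρ ∈ Finset.Icc ρ0 (ρ0 + (N : ℤ)), f ρ := by
  refine Finset.sum_bij' (fun i _ => ρ0 + (i : ℤ)) (fun ρ _ => (ρ - ρ0).toNat) ?_ ?_ ?_ ?_ ?_
  · intro i hi
    have := Finset.mem_range.mp hi
    simp only [Finset.mem_Icc]
    constructor <;> omega
  · intro ρ hρ
    simp only [Finset.mem_Icc] at hρ
    simp only [Finset.mem_range]
    omega
  · intro i _
    simp
  · intro ρ hρ
    simp only [Finset.mem_Icc] at hρ
    have : ((ρ - ρ0).toNat : ℤ) = ρ - ρ0 := Int.toNat_of_nonneg (by omega)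
    rw [this]
    ring
  · intro i _
    rfl

/-- A window sum of a function that vanishes on the window outside `[ρ0, ρ0 + N]`. -/
theorem win_eq (f : ℤ → ℝ) (r ρ0 : ℤ) (C N : ℕ) (h1 : r - (C : ℤ) ≤ ρ0) (h2 : ρ0 + (N : ℤ) ≤ r)
    (hout : ∀ ρ : ℤ, r - (C : ℤ) ≤ ρ → ρ ≤ r → (ρ < ρ0 ∨ ρ0 + (N : ℤ) < ρ) → f ρ = 0) :
    ∑ k ∈ range (C + 1), f (r - (k : ℤ)) = ∑ i ∈ range (N + 1), f (ρ0 + (i : ℤ)) := by
  rw [sum_range_sub, sum_range_add]
  symm
  refine Finset.sum_subset ?_ ?_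
  · intro ρ hρ
    simp only [Finset.mem_Icc] at hρ ⊢
    constructor <;> omega
  · intro ρ hρ hn
    simp only [Finset.mem_Icc] at hρ hn
    refine hout ρ hρ.1 hρ.2 ?_
    by_contra hcon
    apply hn
    constructor <;> omega

/-- A window sum of a point mass. -/
theorem win_point (c : ℝ) (r a : ℤ) (C : ℕ) (h1 : r - (C : ℤ) ≤ a) (h2 : a ≤ r) :
    ∑ k ∈ range (C + 1), (if r - (k : ℤ) = a then c else 0) = c := by
  rw [sum_range_sub (fun ρ => if ρ = a then c else 0) r C, Finset.sum_ite_eq']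
  simp [Finset.mem_Icc, h1, h2]

/-- The linear form `ξ_ρ = w_{ρ+1} y + l_ρ z`. -/
noncomputable def xi (w l : ℤ → ℝ) (y z : ℝ) (ρ : ℤ) : ℝ := w (ρ + 1) * y + l ρ * z

/-- The quadratic form `T_ρ = w_{ρ+2} y² + 2 l_{ρ+1} y z + q_ρ z²`. -/
noncomputable def Tt (w l q : ℤ → ℝ) (y z : ℝ) (ρ : ℤ) : ℝ :=
  w (ρ + 2) * y ^ 2 + 2 * l (ρ + 1) * y * z + q ρ * z ^ 2

/-- The binary form of `Lor` at level `ρ`. -/
noncomputable def Pn (w l q : ℤ → ℝ) (y z : ℝ) (ρ : ℤ) : ℝ :=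
  (w (ρ + 1) ^ 2 - w ρ * w (ρ + 2)) * y ^ 2
    - 2 * (w ρ * l (ρ + 1) - w (ρ + 1) * l ρ) * y * z
    + (l ρ ^ 2 - w ρ * q ρ) * z ^ 2

theorem w_mul_Tt (w l q : ℤ → ℝ) (y z : ℝ) (ρ : ℤ) :
    w ρ * Tt w l q y z ρ = xi w l y z ρ ^ 2 - Pn w l q y z ρ := by
  unfold Tt xi Pn
  ring

theorem Pn_nonneg {m : ℕ} {w l q : ℤ → ℝ} (h : Lor m w l q) (y z : ℝ) (ρ : ℤ)
    (h0 : 0 ≤ ρ) (hm : ρ ≤ (m : ℤ)) : 0 ≤ Pn w l q y z ρ := by
  unfold Pn
  exact h.2.2.2.2 ρ h0 hm y z

theorem w_nonneg {m : ℕ} {w l q : ℤ → ℝ} (h : Lor m w l q) (ρ : ℤ) : 0 ≤ w ρ := by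
  by_cases hin : 0 ≤ ρ ∧ ρ ≤ (m : ℤ)
  · exact (h.1 ρ hin.1 hin.2).le
  · have hout : ρ < 0 ∨ (m : ℤ) < ρ := by
      by_contra hcon
      apply hin
      constructor <;> omega
    rw [h.2.1 ρ hout]

theorem xi_zero_above {m : ℕ} {w l q : ℤ → ℝ} (h : Lor m w l q) (y z : ℝ) (ρ : ℤ)
    (hρ : (m : ℤ) < ρ) : xi w l y z ρ = 0 := by
  unfold xi
  rw [h.2.1 (ρ + 1) (Or.inr (by omega)), h.2.2.1 ρ (Or.inr hρ)]
  ring

theorem Tt_zero_above {m : ℕ} {w l q : ℤ → ℝ} (h : Lor m w l q) (y z : ℝ) (ρ : ℤ)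
    (hρ : (m : ℤ) < ρ) : Tt w l q y z ρ = 0 := by
  unfold Tt
  rw [h.2.1 (ρ + 2) (Or.inr (by omega)), h.2.2.1 (ρ + 1) (Or.inr (by omega)),
    h.2.2.2.1 ρ (Or.inr hρ)]
  ring

/-- The window lemma applied to a window `[ρ0, ρ0 + N]` inside the support. -/
theorem core_window {m : ℕ} {w l q : ℤ → ℝ} (h : Lor m w l q) (y z σ : ℝ) (ρ0 : ℤ) (N : ℕ)
    (h0 : 0 ≤ ρ0) (hN : ρ0 + (N : ℤ) ≤ (m : ℤ)) :
    (∑ i ∈ range (N + 1), w (ρ0 + (i : ℤ)))
        * (∑ i ∈ range (N + 1), Tt w l q y z (ρ0 + (i : ℤ)) + 2 * σ * xi w l y z ρ0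
            + σ ^ 2 * (w ρ0 - w (ρ0 + 1)))
      ≤ (∑ i ∈ range (N + 1), xi w l y z (ρ0 + (i : ℤ)) + σ * w ρ0) ^ 2 := by
  have key := Vale.Agent.Lib.P328.helper24.window_xi N (fun i => w (ρ0 + (i : ℤ)))
    (fun i => xi w l y z (ρ0 + (i : ℤ)))
    (fun i => Pn w l q y z (ρ0 + (i : ℤ)) / w (ρ0 + (i : ℤ))) σ ?_ ?_ ?_ ?_ ?_
  · -- rewrite the conclusion of the window lemma
    have hsum : ∑ i ∈ range (N + 1),
        ((fun i : ℕ => xi w l y z (ρ0 + (i : ℤ))) i ^ 2 / (fun i : ℕ => w (ρ0 + (i : ℤ))) i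
          - (fun i : ℕ => Pn w l q y z (ρ0 + (i : ℤ)) / w (ρ0 + (i : ℤ))) i)
        = ∑ i ∈ range (N + 1), Tt w l q y z (ρ0 + (i : ℤ)) := by
      refine Finset.sum_congr rfl (fun i hi => ?_)
      have hi' := Finset.mem_range.mp hi
      have hpos : 0 < w (ρ0 + (i : ℤ)) := h.1 _ (by omega) (by omega)
      have hT := w_mul_Tt w l q y z (ρ0 + (i : ℤ))
      show xi w l y z (ρ0 + (i : ℤ)) ^ 2 / w (ρ0 + (i : ℤ))
          - Pn w l q y z (ρ0 + (i : ℤ)) / w (ρ0 + (i : ℤ)) = Tt w l q y z (ρ0 + (i : ℤ))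
      rw [← sub_div, ← hT]
      field_simp
    rw [hsum] at key
    have e0 : ρ0 + ((0 : ℕ) : ℤ) = ρ0 := by simp
    have e1 : ρ0 + ((1 : ℕ) : ℤ) = ρ0 + 1 := by simp
    simp only [e0, e1] at key
    exact key
  · intro i hi
    exact h.1 _ (by omega) (by omega)
  · exact w_nonneg h _
  · intro i hi
    exact div_nonneg (Pn_nonneg h y z _ (by omega) (by omega)) (w_nonneg h _)
  · intro i hi
    have h5 := h.2.2.2.2 (ρ0 + (i : ℤ)) (by omega) (by omega) 1 0
    have e1 : ρ0 + ((i + 1 : ℕ) : ℤ) = ρ0 + (i : ℤ) + 1 := by push_cast; ring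
    have e2 : ρ0 + ((i + 2 : ℕ) : ℤ) = ρ0 + (i : ℤ) + 2 := by push_cast; ring
    show w (ρ0 + (i : ℤ)) * w (ρ0 + ((i + 2 : ℕ) : ℤ)) ≤ w (ρ0 + ((i + 1 : ℕ) : ℤ)) ^ 2
    rw [e1, e2]
    nlinarith
  · intro i hi
    have e1 : ρ0 + ((i + 1 : ℕ) : ℤ) = ρ0 + (i : ℤ) + 1 := by push_cast; ring
    have e2 : ρ0 + ((i + 2 : ℕ) : ℤ) = ρ0 + (i : ℤ) + 2 := by push_cast; ring
    have hpos : 0 < w (ρ0 + (i : ℤ)) := h.1 _ (by omega) (by omega)
    show (w (ρ0 + (i : ℤ)) * xi w l y z (ρ0 + ((i + 1 : ℕ) : ℤ))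
          - w (ρ0 + ((i + 1 : ℕ) : ℤ)) * xi w l y z (ρ0 + (i : ℤ))) ^ 2
        ≤ (w (ρ0 + ((i + 1 : ℕ) : ℤ)) ^ 2 - w (ρ0 + (i : ℤ)) * w (ρ0 + ((i + 2 : ℕ) : ℤ)))
          * (w (ρ0 + (i : ℤ)) * (Pn w l q y z (ρ0 + (i : ℤ)) / w (ρ0 + (i : ℤ))))
    rw [e1, e2, mul_div_cancel₀ _ hpos.ne']
    have hd := disc_of_psd (h.2.2.2.2 (ρ0 + (i : ℤ)) (by omega) (by omega))
    have e3 : ρ0 + (i : ℤ) + 1 + 1 = ρ0 + (i : ℤ) + 2 := by ring
    unfold xi Pn
    rw [e3]
    have hz : 0 ≤ z ^ 2 := sq_nonneg z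
    have hmul := mul_nonneg (sub_nonneg.mpr hd) hz
    nlinarith

/-- Below the support, `ξ` is a point mass at level `-1`. -/
theorem xi_split {m : ℕ} {w l q : ℤ → ℝ} (h : Lor m w l q) (y z : ℝ) (ρ : ℤ) :
    xi w l y z ρ = (if 0 ≤ ρ then xi w l y z ρ else 0) + (if ρ = -1 then w 0 * y else 0) := by
  by_cases h0 : 0 ≤ ρ
  · have h1 : ρ ≠ -1 := by omega
    rw [if_pos h0, if_neg h1]
    ring
  · rw [if_neg h0]
    have hl : l ρ = 0 := h.2.2.1 ρ (Or.inl (by omega))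
    by_cases h1 : ρ = -1
    · rw [if_pos h1]
      subst h1
      unfold xi
      rw [hl]
      norm_num
    · rw [if_neg h1]
      have hw : w (ρ + 1) = 0 := h.2.1 (ρ + 1) (Or.inl (by omega))
      unfold xi
      rw [hl, hw]
      ring

/-- Below the support, `T` consists of point masses at the levels `-1` and `-2`. -/
theorem Tt_split {m : ℕ} {w l q : ℤ → ℝ} (h : Lor m w l q) (y z : ℝ) (ρ : ℤ) :
    Tt w l q y z ρ = (if 0 ≤ ρ then Tt w l q y z ρ else 0)
      + (if ρ = -1 then w 1 * y ^ 2 + 2 * l 0 * y * z else 0)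
      + (if ρ = -2 then w 0 * y ^ 2 else 0) := by
  by_cases h0 : 0 ≤ ρ
  · have h1 : ρ ≠ -1 := by omega
    have h2 : ρ ≠ -2 := by omega
    rw [if_pos h0, if_neg h1, if_neg h2]
    ring
  · rw [if_neg h0]
    have hq : q ρ = 0 := h.2.2.2.1 ρ (Or.inl (by omega))
    by_cases h1 : ρ = -1
    · have h2 : ρ ≠ -2 := by omega
      rw [if_pos h1, if_neg h2]
      subst h1
      unfold Tt
      rw [hq]
      norm_num
    · rw [if_neg h1]
      have hl : l (ρ + 1) = 0 := h.2.2.1 (ρ + 1) (Or.inl (by omega))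
      by_cases h2 : ρ = -2
      · rw [if_pos h2]
        subst h2
        unfold Tt
        rw [hq, hl]
        norm_num
      · rw [if_neg h2]
        have hw : w (ρ + 2) = 0 := h.2.1 (ρ + 2) (Or.inl (by omega))
        unfold Tt
        rw [hq, hl, hw]
        ring

/-- The main inequality of the column step, in window form. -/
theorem step_core {m : ℕ} {w l q : ℤ → ℝ} (h : Lor m w l q) (C : ℕ) (y z σ : ℝ) (r : ℤ)
    (hr0 : 0 ≤ r) (hr : r ≤ (m : ℤ) + (C : ℤ)) :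
    (∑ k ∈ range (C + 1), w (r - (k : ℤ)))
        * (∑ k ∈ range (C + 1), Tt w l q y z (r - (k : ℤ)) + 2 * σ * xi w l y z (r - (C : ℤ))
            + σ ^ 2 * (w (r - (C : ℤ)) - if 1 ≤ C then w (r - (C : ℤ) + 1) else 0))
      ≤ (∑ k ∈ range (C + 1), xi w l y z (r - (k : ℤ)) + σ * w (r - (C : ℤ))) ^ 2 := by
  by_cases ha : 0 ≤ r - (C : ℤ)
  · -- the window starts inside the support
    by_cases hC : C = 0
    · subst hC
      have hrm : r ≤ (m : ℤ) := by simpa using hr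
      have hT := w_mul_Tt w l q y z r
      have hP := Pn_nonneg h y z r hr0 hrm
      simp only [zero_add, Finset.sum_range_one, Nat.cast_zero, sub_zero]
      have hif : (if 1 ≤ 0 then w (r + 1) else (0 : ℝ)) = 0 := by simp
      rw [hif]
      have e : w r * (Tt w l q y z r + 2 * σ * xi w l y z r + σ ^ 2 * (w r - 0))
          = w r * Tt w l q y z r + 2 * σ * xi w l y z r * w r + σ ^ 2 * w r ^ 2 := by ring
      have e2 : (xi w l y z r + σ * w r) ^ 2
          = xi w l y z r ^ 2 + 2 * σ * xi w l y z r * w r + σ ^ 2 * w r ^ 2 := by ring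
      rw [e, e2, hT]
      linarith
    · have hC1 : 1 ≤ C := Nat.one_le_iff_ne_zero.mpr hC
      obtain ⟨N, hN⟩ : ∃ N : ℕ, r - (C : ℤ) + (N : ℤ) = min r (m : ℤ) :=
        ⟨(min r (m : ℤ) - (r - (C : ℤ))).toNat, by
          rw [Int.toNat_of_nonneg (by omega)]
          ring⟩
      have hNm : r - (C : ℤ) + (N : ℤ) ≤ (m : ℤ) := by omega
      have hNr : r - (C : ℤ) + (N : ℤ) ≤ r := by omega
      have hW := win_eq w r (r - (C : ℤ)) C N le_rfl hNr (by
        intro ρ h1 h2 h3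
        exact h.2.1 ρ (Or.inr (by omega)))
      have hX := win_eq (xi w l y z) r (r - (C : ℤ)) C N le_rfl hNr (by
        intro ρ h1 h2 h3
        exact xi_zero_above h y z ρ (by omega))
      have hTT := win_eq (Tt w l q y z) r (r - (C : ℤ)) C N le_rfl hNr (by
        intro ρ h1 h2 h3
        exact Tt_zero_above h y z ρ (by omega))
      rw [hW, hX, hTT, if_pos hC1]
      exact core_window h y z σ (r - (C : ℤ)) N ha hNm
  · -- the window starts below the support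
    have ha' : r - (C : ℤ) ≤ -1 := by omega
    have hC1 : 1 ≤ C := by omega
    obtain ⟨N, hN⟩ : ∃ N : ℕ, (0 : ℤ) + (N : ℤ) = min r (m : ℤ) :=
      ⟨(min r (m : ℤ)).toNat, by
        rw [Int.toNat_of_nonneg (by omega)]
        ring⟩
    have hNm : (0 : ℤ) + (N : ℤ) ≤ (m : ℤ) := by omega
    have hNr : (0 : ℤ) + (N : ℤ) ≤ r := by omega
    have hW := win_eq w r 0 C N (by omega) hNr (by
      intro ρ h1 h2 h3
      rcases h3 with h3 | h3
      · exact h.2.1 ρ (Or.inl h3)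
      · exact h.2.1 ρ (Or.inr (by omega)))
    -- the sum of xi
    have hX : ∑ k ∈ range (C + 1), xi w l y z (r - (k : ℤ))
        = ∑ i ∈ range (N + 1), xi w l y z (0 + (i : ℤ)) + w 0 * y := by
      have e1 : ∑ k ∈ range (C + 1), xi w l y z (r - (k : ℤ))
          = ∑ k ∈ range (C + 1), (fun ρ : ℤ => if 0 ≤ ρ then xi w l y z ρ else 0) (r - (k : ℤ))
            + ∑ k ∈ range (C + 1), (if r - (k : ℤ) = -1 then w 0 * y else 0) := by
        rw [← Finset.sum_add_distrib]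
        exact Finset.sum_congr rfl (fun k _ => xi_split h y z _)
      have e2 := win_eq (fun ρ : ℤ => if 0 ≤ ρ then xi w l y z ρ else 0) r 0 C N (by omega) hNr (by
        intro ρ h1 h2 h3
        rcases h3 with h3 | h3
        · show (if 0 ≤ ρ then xi w l y z ρ else 0) = 0
          rw [if_neg (by omega)]
        · show (if 0 ≤ ρ then xi w l y z ρ else 0) = 0
          rw [if_pos (by omega)]
          exact xi_zero_above h y z ρ (by omega))
      have e3 : ∑ i ∈ range (N + 1), (fun ρ : ℤ => if 0 ≤ ρ then xi w l y z ρ else 0) (0 + (i : ℤ))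
          = ∑ i ∈ range (N + 1), xi w l y z (0 + (i : ℤ)) := by
        refine Finset.sum_congr rfl (fun i _ => ?_)
        show (if 0 ≤ 0 + (i : ℤ) then xi w l y z (0 + (i : ℤ)) else 0) = xi w l y z (0 + (i : ℤ))
        rw [if_pos (by omega)]
      rw [e1, e2, e3, win_point (w 0 * y) r (-1) C ha' (by omega)]
    -- the sum of T
    have hTT : ∑ k ∈ range (C + 1), Tt w l q y z (r - (k : ℤ))
        = ∑ i ∈ range (N + 1), Tt w l q y z (0 + (i : ℤ)) + (w 1 * y ^ 2 + 2 * l 0 * y * z)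
          + (if r - (C : ℤ) ≤ -2 then w 0 * y ^ 2 else 0) := by
      have e1 : ∑ k ∈ range (C + 1), Tt w l q y z (r - (k : ℤ))
          = ∑ k ∈ range (C + 1), (fun ρ : ℤ => if 0 ≤ ρ then Tt w l q y z ρ else 0) (r - (k : ℤ))
            + ∑ k ∈ range (C + 1), (if r - (k : ℤ) = -1 then w 1 * y ^ 2 + 2 * l 0 * y * z else 0)
            + ∑ k ∈ range (C + 1), (if r - (k : ℤ) = -2 then w 0 * y ^ 2 else 0) := by
        rw [← Finset.sum_add_distrib, ← Finset.sum_add_distrib]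
        exact Finset.sum_congr rfl (fun k _ => Tt_split h y z _)
      have e2 := win_eq (fun ρ : ℤ => if 0 ≤ ρ then Tt w l q y z ρ else 0) r 0 C N (by omega) hNr (by
        intro ρ h1 h2 h3
        rcases h3 with h3 | h3
        · show (if 0 ≤ ρ then Tt w l q y z ρ else 0) = 0
          rw [if_neg (by omega)]
        · show (if 0 ≤ ρ then Tt w l q y z ρ else 0) = 0
          rw [if_pos (by omega)]
          exact Tt_zero_above h y z ρ (by omega))
      have e3 : ∑ i ∈ range (N + 1), (fun ρ : ℤ => if 0 ≤ ρ then Tt w l q y z ρ else 0) (0 + (i : ℤ))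
          = ∑ i ∈ range (N + 1), Tt w l q y z (0 + (i : ℤ)) := by
        refine Finset.sum_congr rfl (fun i _ => ?_)
        show (if 0 ≤ 0 + (i : ℤ) then Tt w l q y z (0 + (i : ℤ)) else 0) = Tt w l q y z (0 + (i : ℤ))
        rw [if_pos (by omega)]
      have e4 : ∑ k ∈ range (C + 1), (if r - (k : ℤ) = -2 then w 0 * y ^ 2 else 0)
          = (if r - (C : ℤ) ≤ -2 then w 0 * y ^ 2 else 0) := by
        by_cases h2 : r - (C : ℤ) ≤ -2
        · rw [if_pos h2]
          exact win_point (w 0 * y ^ 2) r (-2) C h2 (by omega)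
        · rw [if_neg h2]
          refine Finset.sum_eq_zero (fun k hk => ?_)
          have hk' := Finset.mem_range.mp hk
          rw [if_neg (by omega)]
      rw [e1, e2, e3, e4, win_point (w 1 * y ^ 2 + 2 * l 0 * y * z) r (-1) C ha' (by omega)]
    have hcore := core_window h y z y 0 N le_rfl hNm
    have hxi0 : xi w l y z 0 = w 1 * y + l 0 * z := by
      unfold xi
      norm_num
    have hw01 : w ((0 : ℤ) + 1) = w 1 := by norm_num
    rw [hxi0, hw01] at hcore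
    have hwa : w (r - (C : ℤ)) = 0 := h.2.1 _ (Or.inl (by omega))
    have hSW : 0 ≤ ∑ i ∈ range (N + 1), w (0 + (i : ℤ)) :=
      Finset.sum_nonneg (fun i _ => w_nonneg h _)
    have hw0 : 0 ≤ w 0 := w_nonneg h 0
    rw [hW, hX, hTT, hwa, if_pos hC1]
    by_cases h2 : r - (C : ℤ) ≤ -2
    · -- the window starts at level -2 or below: no own step
      have hxa : xi w l y z (r - (C : ℤ)) = 0 := by
        unfold xi
        rw [h.2.1 _ (Or.inl (by omega)), h.2.2.1 _ (Or.inl (by omega))]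
        ring
      have hwa1 : w (r - (C : ℤ) + 1) = 0 := h.2.1 _ (Or.inl (by omega))
      rw [if_pos h2, hxa, hwa1]
      have e : ∑ i ∈ range (N + 1), Tt w l q y z (0 + (i : ℤ)) + (w 1 * y ^ 2 + 2 * l 0 * y * z)
            + w 0 * y ^ 2 + 2 * σ * 0 + σ ^ 2 * (0 - 0)
          = ∑ i ∈ range (N + 1), Tt w l q y z (0 + (i : ℤ)) + 2 * y * (w 1 * y + l 0 * z)
            + y ^ 2 * (w 0 - w 1) := by ring
      have e2 : (∑ i ∈ range (N + 1), xi w l y z (0 + (i : ℤ)) + w 0 * y + σ * 0) ^ 2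
          = (∑ i ∈ range (N + 1), xi w l y z (0 + (i : ℤ)) + y * w 0) ^ 2 := by ring
      rw [e, e2]
      exact hcore
    · -- the window starts at level -1
      have hrC : r - (C : ℤ) = -1 := by omega
      have hxa : xi w l y z (r - (C : ℤ)) = w 0 * y := by
        rw [hrC]
        unfold xi
        rw [h.2.2.1 (-1) (Or.inl (by norm_num))]
        norm_num
      have hwa1 : w (r - (C : ℤ) + 1) = w 0 := by
        rw [hrC]
        norm_num
      rw [if_neg h2, hxa, hwa1]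
      have e : (∑ i ∈ range (N + 1), w (0 + (i : ℤ)))
            * (∑ i ∈ range (N + 1), Tt w l q y z (0 + (i : ℤ)) + (w 1 * y ^ 2 + 2 * l 0 * y * z)
              + 0 + 2 * σ * (w 0 * y) + σ ^ 2 * (0 - w 0))
          = (∑ i ∈ range (N + 1), w (0 + (i : ℤ)))
            * (∑ i ∈ range (N + 1), Tt w l q y z (0 + (i : ℤ)) + 2 * y * (w 1 * y + l 0 * z)
              + y ^ 2 * (w 0 - w 1))
            - (∑ i ∈ range (N + 1), w (0 + (i : ℤ))) * (w 0 * (y - σ) ^ 2) := by ring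
      have e2 : (∑ i ∈ range (N + 1), xi w l y z (0 + (i : ℤ)) + w 0 * y + σ * 0) ^ 2
          = (∑ i ∈ range (N + 1), xi w l y z (0 + (i : ℤ)) + y * w 0) ^ 2 := by ring
      have hnn : 0 ≤ (∑ i ∈ range (N + 1), w (0 + (i : ℤ))) * (w 0 * (y - σ) ^ 2) :=
        mul_nonneg hSW (mul_nonneg hw0 (sq_nonneg _))
      rw [e, e2]
      linarith

/-- The column step: `Lor` is preserved when a column of capacity `C` and weight `t` is
added. -/
theorem lor_step (m C : ℕ) (t : ℝ) (w l q : ℤ → ℝ) (h : Lor m w l q) :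
    Lor (m + C) (addW C w) (addL C t w l) (addQ C t w l q) := by
  have hcast : ((m + C : ℕ) : ℤ) = (m : ℤ) + (C : ℤ) := by push_cast; ring
  have hWout : ∀ ρ : ℤ, (ρ < 0 ∨ ((m + C : ℕ) : ℤ) < ρ) → addW C w ρ = 0 := by
    intro ρ hρ
    unfold addW
    refine Finset.sum_eq_zero (fun k hk => ?_)
    have hk' := Finset.mem_range.mp hk
    exact h.2.1 _ (by omega)
  have hLsum : ∀ ρ : ℤ, (ρ < 0 ∨ ((m + C : ℕ) : ℤ) < ρ) →
      ∑ k ∈ range (C + 1), l (ρ - (k : ℤ)) = 0 := by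
    intro ρ hρ
    refine Finset.sum_eq_zero (fun k hk => ?_)
    have hk' := Finset.mem_range.mp hk
    exact h.2.2.1 _ (by omega)
  have hQsum : ∀ ρ : ℤ, (ρ < 0 ∨ ((m + C : ℕ) : ℤ) < ρ) →
      ∑ k ∈ range (C + 1), q (ρ - (k : ℤ)) = 0 := by
    intro ρ hρ
    refine Finset.sum_eq_zero (fun k hk => ?_)
    have hk' := Finset.mem_range.mp hk
    exact h.2.2.2.1 _ (by omega)
  refine ⟨?_, hWout, ?_, ?_, ?_⟩
  · -- positivity on the new support
    intro ρ h0 hm
    unfold addW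
    refine Finset.sum_pos' (fun k _ => w_nonneg h _) ?_
    refine ⟨(ρ - (m : ℤ)).toNat, ?_, ?_⟩
    · rw [Finset.mem_range]
      omega
    · exact h.1 _ (by omega) (by omega)
  · -- l vanishes outside the new support
    intro ρ hρ
    unfold addL
    rw [hLsum ρ hρ, h.2.1 (ρ - (C : ℤ)) (by omega)]
    ring
  · -- q vanishes outside the new support
    intro ρ hρ
    unfold addQ
    rw [hQsum ρ hρ, h.2.2.1 (ρ - (C : ℤ)) (by omega), h.2.1 (ρ - (C : ℤ)) (by omega)]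
    by_cases hC : 1 ≤ C
    · rw [if_pos hC, h.2.1 (ρ - (C : ℤ) + 1) (by omega)]
      ring
    · rw [if_neg hC]
      ring
  · -- the binary form
    intro r hr0 hrm y z
    have hr : r ≤ (m : ℤ) + (C : ℤ) := by omega
    have eW1 : addW C w (r + 1) = ∑ k ∈ range (C + 1), w (r - (k : ℤ) + 1) := by
      unfold addW
      exact Finset.sum_congr rfl (fun k _ => by rw [show r + 1 - (k : ℤ) = r - (k : ℤ) + 1 by ring])
    have eW2 : addW C w (r + 2) = ∑ k ∈ range (C + 1), w (r - (k : ℤ) + 2) := by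
      unfold addW
      exact Finset.sum_congr rfl (fun k _ => by rw [show r + 2 - (k : ℤ) = r - (k : ℤ) + 2 by ring])
    have eL1 : addL C t w l (r + 1)
        = ∑ k ∈ range (C + 1), l (r - (k : ℤ) + 1) + t * w (r - (C : ℤ) + 1) := by
      unfold addL
      rw [show r + 1 - (C : ℤ) = r - (C : ℤ) + 1 by ring]
      congr 1
      exact Finset.sum_congr rfl (fun k _ => by rw [show r + 1 - (k : ℤ) = r - (k : ℤ) + 1 by ring])
    have hXi : addW C w (r + 1) * y + addL C t w l r * z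
        = ∑ k ∈ range (C + 1), xi w l y z (r - (k : ℤ)) + (t * z) * w (r - (C : ℤ)) := by
      rw [eW1]
      unfold addL
      have e : ∑ k ∈ range (C + 1), xi w l y z (r - (k : ℤ))
          = (∑ k ∈ range (C + 1), w (r - (k : ℤ) + 1)) * y
            + (∑ k ∈ range (C + 1), l (r - (k : ℤ))) * z := by
        unfold xi
        rw [Finset.sum_add_distrib, Finset.sum_mul, Finset.sum_mul]
      rw [e]
      ring
    have hTn : addW C w (r + 2) * y ^ 2 + 2 * addL C t w l (r + 1) * y * z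
          + addQ C t w l q r * z ^ 2
        = ∑ k ∈ range (C + 1), Tt w l q y z (r - (k : ℤ)) + 2 * (t * z) * xi w l y z (r - (C : ℤ))
          + (t * z) ^ 2 * (w (r - (C : ℤ)) - if 1 ≤ C then w (r - (C : ℤ) + 1) else 0) := by
      rw [eW2, eL1]
      unfold addQ
      have e : ∑ k ∈ range (C + 1), Tt w l q y z (r - (k : ℤ))
          = (∑ k ∈ range (C + 1), w (r - (k : ℤ) + 2)) * y ^ 2
            + 2 * (∑ k ∈ range (C + 1), l (r - (k : ℤ) + 1)) * y * z
            + (∑ k ∈ range (C + 1), q (r - (k : ℤ))) * z ^ 2 := by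
        unfold Tt
        simp only [Finset.sum_add_distrib, ← Finset.sum_mul, ← Finset.mul_sum]
      rw [e]
      unfold xi
      ring
    have hcore := step_core h C y z (t * z) r hr0 hr
    rw [← hXi, ← hTn] at hcore
    have hW0 : addW C w r = ∑ k ∈ range (C + 1), w (r - (k : ℤ)) := rfl
    rw [← hW0] at hcore
    nlinarith [hcore]

end Vale.Agent.Lib.P328.helper60
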