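import Mathlib
import Vale.Agent.Lib.P328.helper1.LorCore

/-!
P328: `LorF` is preserved by the transfer `transfer a b` (prefix sums along `e_b - e_a`).
Independent proof of the statement announced in `helper1/LorCore.lean`, by reduction to
the one-dimensional column step `helper74.Lor_step` with capacity `C = m` and weight `t = 0`.
-/

namespace Vale.Agent.Lib.P328.helper60

open Finset
open Vale.Agent.Lib.P328.helper74
open Vale.Agent.Lib.P328.NCq

section Bil

variable {ι : Type*} [Fintype ι] [DecidableEq ι]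

theorem bil_single_left (A : ι → ι → ℝ) (c : ι) (p : ι → ℝ) :
    bil A (Pi.single c 1) p = ∑ s, A c s * p s := by
  unfold bil
  rw [Finset.sum_eq_single c]
  · simp
  · intro x _ hx
    simp [hx]
  · intro h
    exact absurd (Finset.mem_univ c) h

theorem bil_single_single (A : ι → ι → ℝ) (c d : ι) :
    bil A (Pi.single c 1) (Pi.single d 1) = A c d := by
  rw [bil_single_left]
  rw [Finset.sum_eq_single d]
  · simp
  · intro x _ hx
    simp [hx]
  · intro h
    exact absurd (Finset.mem_univ d) h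

omit [DecidableEq ι] in
theorem bil_lin_right (A : ι → ι → ℝ) (x p r : ι → ℝ) (s t : ℝ) :
    bil A x (fun c => s * p c + t * r c) = s * bil A x p + t * bil A x r := by
  simp only [bil, Finset.mul_sum, ← Finset.sum_add_distrib]
  refine Finset.sum_congr rfl (fun c _ => Finset.sum_congr rfl (fun d _ => ?_))
  ring

/-- Reverse Cauchy-Schwarz at `e_a` follows from its restriction to the vectors
`y e_b + v` with `v a = v b = 0`. -/
theorem rcs_of_core (A : ι → ι → ℝ) (hsym : ∀ c d, A c d = A d c) (a b : ι) (hab : a ≠ b)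
    (hcore : ∀ (v : ι → ℝ), v a = 0 → v b = 0 → ∀ y : ℝ,
      A a a * (y ^ 2 * A b b + 2 * y * (∑ s, A b s * v s) + ∑ s, ∑ s', v s * A s s' * v s')
        ≤ (y * A a b + ∑ s, A a s * v s) ^ 2) (u : ι → ℝ) :
    bil A (Pi.single a 1) (Pi.single a 1) * bil A u u ≤ bil A (Pi.single a 1) u ^ 2 := by
  set v : ι → ℝ := fun c => if c = a ∨ c = b then 0 else u c with hv
  have hva : v a = 0 := by simp [hv]
  have hvb : v b = 0 := by simp [hv]
  set u' : ι → ℝ := fun c => u b * (Pi.single b (1 : ℝ) : ι → ℝ) c + 1 * v c with hu'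
  have hu : u = fun c => u a * (Pi.single a (1 : ℝ) : ι → ℝ) c + 1 * u' c := by
    funext c
    by_cases hca : c = a
    · subst hca
      simp [hu', hv, Pi.single_apply, hab]
    · by_cases hcb : c = b
      · subst hcb
        simp [hu', hv, Pi.single_apply, hca]
      · simp [hu', hv, Pi.single_apply, hca, hcb]
  have h1 : bil A u u = u a * u a * bil A (Pi.single a 1) (Pi.single a 1)
      + u a * 1 * bil A (Pi.single a 1) u' + 1 * u a * bil A u' (Pi.single a 1)
      + 1 * 1 * bil A u' u' := by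
    conv_lhs => rw [hu]
    exact bil_comb A (Pi.single a 1) u' (u a) 1 (u a) 1
  have h2 : bil A (Pi.single a 1) u = u a * bil A (Pi.single a 1) (Pi.single a 1)
      + 1 * bil A (Pi.single a 1) u' := by
    conv_lhs => rw [hu]
    exact bil_lin_right A (Pi.single a 1) (Pi.single a 1) u' (u a) 1
  have h3 : bil A u' (Pi.single a 1) = bil A (Pi.single a 1) u' := bil_symm hsym _ _
  -- the restricted vector
  have h4 : bil A u' u' = u b * u b * bil A (Pi.single b 1) (Pi.single b 1)
      + u b * 1 * bil A (Pi.single b 1) v + 1 * u b * bil A v (Pi.single b 1)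
      + 1 * 1 * bil A v v :=
    bil_comb A (Pi.single b 1) v (u b) 1 (u b) 1
  have h5 : bil A (Pi.single a 1) u' = u b * bil A (Pi.single a 1) (Pi.single b 1)
      + 1 * bil A (Pi.single a 1) v :=
    bil_lin_right A (Pi.single a 1) (Pi.single b 1) v (u b) 1
  have h6 : bil A v (Pi.single b 1) = bil A (Pi.single b 1) v := bil_symm hsym _ _
  have hc := hcore v hva hvb (u b)
  rw [h1, h2, h3, h4, h5, h6, bil_single_single, bil_single_single, bil_single_single,
    bil_single_left, bil_single_left]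
  have hvv : bil A v v = ∑ s, ∑ s', v s * A s s' * v s' := rfl
  rw [hvv]
  nlinarith [hc]

end Bil

section Line

variable {ι : Type*} [Fintype ι] [DecidableEq ι]

/-- The point of the line through `γ` in direction `e_b - e_a` with `b`-coordinate `j` and
`a`-coordinate `M - j`. -/
def lpt (γ : ι → ℕ) (a b : ι) (M j : ℕ) : ι → ℕ :=
  Function.update (Function.update γ b j) a (M - j)

omit [Fintype ι] in
theorem lpt_a (γ : ι → ℕ) (a b : ι) (M j : ℕ) : lpt γ a b M j a = M - j := by
  simp [lpt]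

omit [Fintype ι] in
theorem lpt_b (γ : ι → ℕ) (a b : ι) (hab : a ≠ b) (M j : ℕ) : lpt γ a b M j b = j := by
  unfold lpt
  rw [Function.update_of_ne (Ne.symm hab), Function.update_self]

omit [Fintype ι] in
theorem lpt_ne (γ : ι → ℕ) (a b : ι) (M j : ℕ) (c : ι) (hca : c ≠ a) (hcb : c ≠ b) :
    lpt γ a b M j c = γ c := by
  unfold lpt
  rw [Function.update_of_ne hca, Function.update_of_ne hcb]

omit [Fintype ι] in
theorem lpt_self (γ : ι → ℕ) (a b : ι) (hab : a ≠ b) : lpt γ a b (γ a + γ b) (γ b) = γ := by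
  funext c
  by_cases hca : c = a
  · subst hca
    rw [lpt_a]; omega
  · by_cases hcb : c = b
    · subst hcb
      rw [lpt_b γ a c hab]
    · rw [lpt_ne γ a b _ _ c hca hcb]

omit [Fintype ι] in
theorem lpt_add_a (γ : ι → ℕ) (a b : ι) (hab : a ≠ b) (M j : ℕ) (hj : j ≤ M) :
    lpt γ a b M j + Pi.single a 1 = lpt γ a b (M + 1) j := by
  funext c
  by_cases hca : c = a
  · subst hca
    simp only [Pi.add_apply, lpt_a, Pi.single_eq_same]
    omega
  · by_cases hcb : c = b
    · subst hcb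
      simp only [Pi.add_apply, lpt_b γ a c hab, Pi.single_eq_of_ne hca]
      omega
    · simp only [Pi.add_apply, lpt_ne γ a b _ _ c hca hcb, Pi.single_eq_of_ne hca]
      omega

omit [Fintype ι] in
theorem lpt_add_b (γ : ι → ℕ) (a b : ι) (hab : a ≠ b) (M j : ℕ) (hj : j ≤ M) :
    lpt γ a b M j + Pi.single b 1 = lpt γ a b (M + 1) (j + 1) := by
  funext c
  by_cases hca : c = a
  · subst hca
    simp only [Pi.add_apply, lpt_a, Pi.single_eq_of_ne hab]
    omega
  · by_cases hcb : c = b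
    · subst hcb
      simp only [Pi.add_apply, lpt_b γ a c hab, Pi.single_eq_same]
    · simp only [Pi.add_apply, lpt_ne γ a b _ _ c hca hcb, Pi.single_eq_of_ne hcb]
      omega

omit [Fintype ι] in
/-- The transfer at a point of the line (plus a spectator vector) is a prefix sum along
the line. -/
theorem transfer_lpt (F : (ι → ℕ) → ℝ) (γ : ι → ℕ) (a b : ι) (hab : a ≠ b) (M R : ℕ)
    (hR : R ≤ M) (σ : ι → ℕ) (hσa : σ a = 0) (hσb : σ b = 0) :
    transfer a b F (lpt γ a b M R + σ)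
      = ∑ k ∈ range (R + 1), F (lpt γ a b M (R - k) + σ) := by
  unfold transfer
  have hb : (lpt γ a b M R + σ) b = R := by
    simp only [Pi.add_apply, lpt_b γ a b hab, hσb, add_zero]
  have ha : (lpt γ a b M R + σ) a = M - R := by
    simp only [Pi.add_apply, lpt_a, hσa, add_zero]
  rw [hb, ha]
  refine Finset.sum_congr rfl (fun k hk => ?_)
  have hk' : k ≤ R := Nat.lt_succ_iff.mp (Finset.mem_range.mp hk)
  congr 1
  funext c
  by_cases hca : c = a
  · subst hca
    simp only [Function.update_self, Pi.add_apply, lpt_a, hσa, add_zero]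
    omega
  · by_cases hcb : c = b
    · subst hcb
      rw [Function.update_of_ne hca, Function.update_self]
      simp only [Pi.add_apply, lpt_b γ a c hab, hσb, add_zero]
    · rw [Function.update_of_ne hca, Function.update_of_ne hcb]
      simp only [Pi.add_apply, lpt_ne γ a b _ _ c hca hcb]

end Line

section Seq

/-- Extension of a sequence on `ℕ` by zero to `ℤ`. -/
def extZ (f : ℕ → ℝ) : ℤ → ℝ := fun ρ => if 0 ≤ ρ then f ρ.toNat else 0

theorem extZ_nat (f : ℕ → ℝ) (j : ℕ) : extZ f (j : ℤ) = f j := by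
  simp [extZ]

theorem extZ_neg (f : ℕ → ℝ) (ρ : ℤ) (h : ρ < 0) : extZ f ρ = 0 := by
  simp [extZ, not_le.mpr h]

/-- Window sums of an extension by zero are prefix sums. -/
theorem sum_window_ext (f : ℕ → ℝ) (m R : ℕ) (hR : R ≤ m) :
    ∑ k ∈ range (m + 1), extZ f ((R : ℤ) - (k : ℤ)) = ∑ k ∈ range (R + 1), f (R - k) := by
  have hsub : range (R + 1) ⊆ range (m + 1) := Finset.range_subset_range.mpr (by omega)
  rw [← Finset.sum_subset hsub]
  · refine Finset.sum_congr rfl (fun k hk => ?_)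
    have hk' : k ≤ R := Nat.lt_succ_iff.mp (Finset.mem_range.mp hk)
    rw [← Nat.cast_sub hk', extZ_nat]
  · intro k _ hk
    have hk' : R < k := by
      by_contra hcon
      exact hk (Finset.mem_range.mpr (by omega))
    apply extZ_neg
    have : (R : ℤ) < (k : ℤ) := by exact_mod_cast hk'
    linarith

end Seq

section Core

variable {ι : Type*} [Fintype ι] [DecidableEq ι]

/-- The zeroth-order sequence on the line. -/
def wN (F : (ι → ℕ) → ℝ) (γ : ι → ℕ) (a b : ι) (m : ℕ) : ℕ → ℝ :=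
  fun j => if j ≤ m then F (lpt γ a b m j) else 0

/-- The first-order sequence on the line (spectator vector `v`). -/
def lN (F : (ι → ℕ) → ℝ) (γ : ι → ℕ) (a b : ι) (v : ι → ℝ) (m : ℕ) : ℕ → ℝ :=
  fun j => if j ≤ m then ∑ s, v s * F (lpt γ a b m j + Pi.single s 1) else 0

/-- The second-order sequence on the line (spectator vector `v`). -/
def qN (F : (ι → ℕ) → ℝ) (γ : ι → ℕ) (a b : ι) (v : ι → ℝ) (m : ℕ) : ℕ → ℝ :=
  fun j => if j ≤ m then
    ∑ s, ∑ s', v s * v s' * F (lpt γ a b m j + Pi.single s 1 + Pi.single s' 1) else 0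

omit [Fintype ι] in
theorem wN_le (F : (ι → ℕ) → ℝ) (γ : ι → ℕ) (a b : ι) (m j : ℕ) (h : j ≤ m) :
    wN F γ a b m j = F (lpt γ a b m j) := if_pos h

omit [Fintype ι] in
theorem wN_gt (F : (ι → ℕ) → ℝ) (γ : ι → ℕ) (a b : ι) (m j : ℕ) (h : m < j) :
    wN F γ a b m j = 0 := if_neg (not_le.mpr h)

theorem lN_le (F : (ι → ℕ) → ℝ) (γ : ι → ℕ) (a b : ι) (v : ι → ℝ) (m j : ℕ) (h : j ≤ m) :
    lN F γ a b v m j = ∑ s, v s * F (lpt γ a b m j + Pi.single s 1) := if_pos h

theorem lN_gt (F : (ι → ℕ) → ℝ) (γ : ι → ℕ) (a b : ι) (v : ι → ℝ) (m j : ℕ) (h : m < j) :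
    lN F γ a b v m j = 0 := if_neg (not_le.mpr h)

theorem qN_le (F : (ι → ℕ) → ℝ) (γ : ι → ℕ) (a b : ι) (v : ι → ℝ) (m j : ℕ) (h : j ≤ m) :
    qN F γ a b v m j
      = ∑ s, ∑ s', v s * v s' * F (lpt γ a b m j + Pi.single s 1 + Pi.single s' 1) :=
  if_pos h

theorem qN_gt (F : (ι → ℕ) → ℝ) (γ : ι → ℕ) (a b : ι) (v : ι → ℝ) (m j : ℕ) (h : m < j) :
    qN F γ a b v m j = 0 := if_neg (not_le.mpr h)

/-- The binary form at an interior level of the line, from `OnePos` of the second-difference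
matrix at the base point. -/
theorem line_form (F : (ι → ℕ) → ℝ) (hF : LorF F) (γ : ι → ℕ) (a b : ι) (hab : a ≠ b)
    (v : ι → ℝ) (m2 j : ℕ) (hj : j ≤ m2) (y z : ℝ) :
    0 ≤ (F (lpt γ a b (m2 + 2) (j + 1)) ^ 2
          - F (lpt γ a b (m2 + 2) j) * F (lpt γ a b (m2 + 2) (j + 2))) * y ^ 2
      - 2 * (F (lpt γ a b (m2 + 2) j)
              * (∑ s, v s * F (lpt γ a b (m2 + 1) (j + 1) + Pi.single s 1))
            - F (lpt γ a b (m2 + 2) (j + 1))
              * (∑ s, v s * F (lpt γ a b (m2 + 1) j + Pi.single s 1))) * y * z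
      + ((∑ s, v s * F (lpt γ a b (m2 + 1) j + Pi.single s 1)) ^ 2
          - F (lpt γ a b (m2 + 2) j)
            * (∑ s, ∑ s', v s * v s'
                * F (lpt γ a b m2 j + Pi.single s 1 + Pi.single s' 1))) * z ^ 2 := by
  obtain ⟨hpos, hone⟩ := hF
  set H : ι → ι → ℝ := hess F (lpt γ a b m2 j) with hH
  have hsym : ∀ c d, H c d = H d c := hess_symm _ _
  have e1 : lpt γ a b m2 j + Pi.single a 1 = lpt γ a b (m2 + 1) j := lpt_add_a γ a b hab m2 j hj
  have e2 : lpt γ a b m2 j + Pi.single b 1 = lpt γ a b (m2 + 1) (j + 1) :=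
    lpt_add_b γ a b hab m2 j hj
  have e3 : lpt γ a b (m2 + 1) j + Pi.single a 1 = lpt γ a b (m2 + 2) j :=
    lpt_add_a γ a b hab (m2 + 1) j (by omega)
  have e4 : lpt γ a b (m2 + 1) j + Pi.single b 1 = lpt γ a b (m2 + 2) (j + 1) :=
    lpt_add_b γ a b hab (m2 + 1) j (by omega)
  have e5 : lpt γ a b (m2 + 1) (j + 1) + Pi.single b 1 = lpt γ a b (m2 + 2) (j + 2) :=
    lpt_add_b γ a b hab (m2 + 1) (j + 1) (by omega)
  have hHaa : H a a = F (lpt γ a b (m2 + 2) j) := by
    simp only [hH, hess]; rw [e1, e3]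
  have hHab : H a b = F (lpt γ a b (m2 + 2) (j + 1)) := by
    simp only [hH, hess]; rw [e1, e4]
  have hHbb : H b b = F (lpt γ a b (m2 + 2) (j + 2)) := by
    simp only [hH, hess]; rw [e2, e5]
  have hHas : ∑ s, H a s * v s = ∑ s, v s * F (lpt γ a b (m2 + 1) j + Pi.single s 1) := by
    refine Finset.sum_congr rfl (fun s _ => ?_)
    simp only [hH, hess]; rw [e1, mul_comm]
  have hHbs : ∑ s, H b s * v s
      = ∑ s, v s * F (lpt γ a b (m2 + 1) (j + 1) + Pi.single s 1) := by
    refine Finset.sum_congr rfl (fun s _ => ?_)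
    simp only [hH, hess]; rw [e2, mul_comm]
  have hHvv : bil H v v
      = ∑ s, ∑ s', v s * v s' * F (lpt γ a b m2 j + Pi.single s 1 + Pi.single s' 1) := by
    unfold bil
    refine Finset.sum_congr rfl (fun s _ => Finset.sum_congr rfl (fun s' _ => ?_))
    simp only [hH, hess]; ring
  have hx : 0 < bil H (Pi.single a 1) (Pi.single a 1) := by
    rw [bil_single_single, hHaa]; exact hpos _
  have hrcs := hone (lpt γ a b m2 j) (Pi.single a 1)
    (fun c => y * (Pi.single b (1 : ℝ) : ι → ℝ) c + z * v c) hx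
  have h4 : bil H (fun c => y * (Pi.single b (1 : ℝ) : ι → ℝ) c + z * v c)
      (fun c => y * (Pi.single b (1 : ℝ) : ι → ℝ) c + z * v c)
      = y * y * bil H (Pi.single b 1) (Pi.single b 1)
      + y * z * bil H (Pi.single b 1) v + z * y * bil H v (Pi.single b 1)
      + z * z * bil H v v :=
    bil_comb H (Pi.single b 1) v y z y z
  have h5 : bil H (Pi.single a 1) (fun c => y * (Pi.single b (1 : ℝ) : ι → ℝ) c + z * v c)
      = y * bil H (Pi.single a 1) (Pi.single b 1) + z * bil H (Pi.single a 1) v :=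
    bil_lin_right H (Pi.single a 1) (Pi.single b 1) v y z
  have h6 : bil H v (Pi.single b 1) = bil H (Pi.single b 1) v := bil_symm hsym _ _
  rw [← hH] at hrcs
  rw [h4, h5, h6, bil_single_single, bil_single_single, bil_single_single,
    bil_single_left, bil_single_left, hHaa, hHab, hHbb, hHas, hHbs, hHvv] at hrcs
  nlinarith [hrcs]

/-- The three sequences on the line satisfy `Lor`. -/
theorem line_Lor (F : (ι → ℕ) → ℝ) (hF : LorF F) (γ : ι → ℕ) (a b : ι) (hab : a ≠ b)
    (v : ι → ℝ) (m2 : ℕ) :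
    Lor (m2 + 2) (extZ (wN F γ a b (m2 + 2))) (extZ (lN F γ a b v (m2 + 1)))
      (extZ (qN F γ a b v m2)) := by
  have hpos := hF.1
  refine ⟨?_, ?_, ?_, ?_, ?_⟩
  · intro ρ h0 hm
    obtain ⟨j, rfl⟩ := Int.eq_ofNat_of_zero_le h0
    have hj : j ≤ m2 + 2 := by exact_mod_cast hm
    rw [extZ_nat, wN_le F γ a b _ j hj]
    exact hpos _
  · intro ρ h
    rcases h with h | h
    · exact extZ_neg _ ρ h
    · have h0 : (0 : ℤ) ≤ ρ := le_trans (Int.natCast_nonneg _) h.le
      obtain ⟨j, rfl⟩ := Int.eq_ofNat_of_zero_le h0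
      have hj : m2 + 2 < j := by exact_mod_cast h
      rw [extZ_nat, wN_gt F γ a b _ j hj]
  · intro ρ h
    rcases h with h | h
    · exact extZ_neg _ ρ h
    · have h0 : (0 : ℤ) ≤ ρ := le_trans (Int.natCast_nonneg _) h.le
      obtain ⟨j, rfl⟩ := Int.eq_ofNat_of_zero_le h0
      have hj : m2 + 2 < j := by exact_mod_cast h
      rw [extZ_nat, lN_gt F γ a b v _ j (by omega)]
  · intro ρ h
    rcases h with h | h
    · exact extZ_neg _ ρ h
    · have h0 : (0 : ℤ) ≤ ρ := le_trans (Int.natCast_nonneg _) h.le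
      obtain ⟨j, rfl⟩ := Int.eq_ofNat_of_zero_le h0
      have hj : m2 + 2 < j := by exact_mod_cast h
      rw [extZ_nat, qN_gt F γ a b v _ j (by omega)]
  · intro ρ h0 hm y z
    obtain ⟨j, rfl⟩ := Int.eq_ofNat_of_zero_le h0
    have hj : j ≤ m2 + 2 := by exact_mod_cast hm
    have c1 : ((j : ℤ) + 1) = ((j + 1 : ℕ) : ℤ) := by push_cast; ring
    have c2 : ((j : ℤ) + 2) = ((j + 2 : ℕ) : ℤ) := by push_cast; ring
    rw [c1, c2]
    simp only [extZ_nat]
    by_cases hj2 : j ≤ m2
    · rw [wN_le F γ a b _ j (by omega), wN_le F γ a b _ (j + 1) (by omega),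
        wN_le F γ a b _ (j + 2) (by omega), lN_le F γ a b v _ j (by omega),
        lN_le F γ a b v _ (j + 1) (by omega), qN_le F γ a b v _ j hj2]
      exact line_form F hF γ a b hab v m2 j hj2 y z
    · by_cases hj1 : j = m2 + 1
      · subst hj1
        rw [wN_gt F γ a b _ (m2 + 1 + 2) (by omega), lN_gt F γ a b v _ (m2 + 1 + 1) (by omega),
          qN_gt F γ a b v _ (m2 + 1) (by omega)]
        nlinarith [sq_nonneg (wN F γ a b (m2 + 2) (m2 + 1 + 1) * y
          + lN F γ a b v (m2 + 1) (m2 + 1) * z)]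
      · have hj3 : j = m2 + 2 := by omega
        subst hj3
        rw [wN_gt F γ a b _ (m2 + 2 + 1) (by omega), wN_gt F γ a b _ (m2 + 2 + 2) (by omega),
          lN_gt F γ a b v _ (m2 + 2) (by omega), lN_gt F γ a b v _ (m2 + 2 + 1) (by omega),
          qN_gt F γ a b v _ (m2 + 2) (by omega)]
        simp

omit [Fintype ι] in
/-- Identification of the window sums of `w` with the transfer. -/
theorem addW_eq (F : (ι → ℕ) → ℝ) (γ : ι → ℕ) (a b : ι) (hab : a ≠ b) (m R : ℕ)
    (hR : R ≤ m) :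
    addW m (extZ (wN F γ a b m)) (R : ℤ) = transfer a b F (lpt γ a b m R) := by
  unfold addW
  rw [sum_window_ext _ m R hR]
  have h := transfer_lpt F γ a b hab m R hR 0 rfl rfl
  rw [add_zero] at h
  rw [h]
  refine Finset.sum_congr rfl (fun k _ => ?_)
  rw [wN_le F γ a b m (R - k) (by omega), add_zero]

/-- Identification of the window sums of `l` with the transfer. -/
theorem addL_eq (F : (ι → ℕ) → ℝ) (γ : ι → ℕ) (a b : ι) (hab : a ≠ b) (v : ι → ℝ)
    (hva : v a = 0) (hvb : v b = 0) (m m1 R : ℕ) (hR : R ≤ m1) (hm : m1 ≤ m)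
    (w : ℤ → ℝ) :
    addL m 0 w (extZ (lN F γ a b v m1)) (R : ℤ)
      = ∑ s, v s * transfer a b F (lpt γ a b m1 R + Pi.single s 1) := by
  unfold addL
  rw [zero_mul, add_zero, sum_window_ext _ m R (by omega)]
  have h1 : ∀ k ∈ range (R + 1), lN F γ a b v m1 (R - k)
      = ∑ s, v s * F (lpt γ a b m1 (R - k) + Pi.single s 1) :=
    fun k _ => lN_le F γ a b v m1 (R - k) (by omega)
  rw [Finset.sum_congr rfl h1, Finset.sum_comm]
  refine Finset.sum_congr rfl (fun s _ => ?_)
  rw [← Finset.mul_sum]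
  by_cases hs : v s = 0
  · rw [hs, zero_mul, zero_mul]
  · have hsa : s ≠ a := fun h => hs (h ▸ hva)
    have hsb : s ≠ b := fun h => hs (h ▸ hvb)
    rw [transfer_lpt F γ a b hab m1 R hR (Pi.single s 1)
      (Pi.single_eq_of_ne (Ne.symm hsa) 1) (Pi.single_eq_of_ne (Ne.symm hsb) 1)]

/-- Identification of the window sums of `q` with the transfer. -/
theorem addQ_eq (F : (ι → ℕ) → ℝ) (γ : ι → ℕ) (a b : ι) (hab : a ≠ b) (v : ι → ℝ)
    (hva : v a = 0) (hvb : v b = 0) (m m2 R : ℕ) (hR : R ≤ m2) (hm : m2 ≤ m)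
    (w l : ℤ → ℝ) :
    addQ m 0 w l (extZ (qN F γ a b v m2)) (R : ℤ)
      = ∑ s, ∑ s', v s * v s'
          * transfer a b F (lpt γ a b m2 R + Pi.single s 1 + Pi.single s' 1) := by
  unfold addQ
  have hz : (2 : ℝ) * 0 * l ((R : ℤ) - (m : ℤ))
      + 0 ^ 2 * (w ((R : ℤ) - (m : ℤ)) - if 1 ≤ m then w ((R : ℤ) - (m : ℤ) + 1) else 0) = 0 := by
    ring
  rw [add_assoc, hz, add_zero, sum_window_ext _ m R (by omega)]
  have h1 : ∀ k ∈ range (R + 1), qN F γ a b v m2 (R - k)
      = ∑ s, ∑ s', v s * v s'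
          * F (lpt γ a b m2 (R - k) + Pi.single s 1 + Pi.single s' 1) :=
    fun k _ => qN_le F γ a b v m2 (R - k) (by omega)
  rw [Finset.sum_congr rfl h1, Finset.sum_comm]
  refine Finset.sum_congr rfl (fun s _ => ?_)
  rw [Finset.sum_comm]
  refine Finset.sum_congr rfl (fun s' _ => ?_)
  rw [← Finset.mul_sum]
  by_cases hs : v s = 0
  · rw [hs, zero_mul, zero_mul, zero_mul]
  · by_cases hs' : v s' = 0
    · rw [hs', mul_zero, zero_mul, zero_mul]
    · have hsa : s ≠ a := fun h => hs (h ▸ hva)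
      have hsb : s ≠ b := fun h => hs (h ▸ hvb)
      have hsa' : s' ≠ a := fun h => hs' (h ▸ hva)
      have hsb' : s' ≠ b := fun h => hs' (h ▸ hvb)
      have hσa : (Pi.single s 1 + Pi.single s' 1 : ι → ℕ) a = 0 := by
        simp [Pi.single_eq_of_ne (Ne.symm hsa), Pi.single_eq_of_ne (Ne.symm hsa')]
      have hσb : (Pi.single s 1 + Pi.single s' 1 : ι → ℕ) b = 0 := by
        simp [Pi.single_eq_of_ne (Ne.symm hsb), Pi.single_eq_of_ne (Ne.symm hsb')]
      have ht := transfer_lpt F γ a b hab m2 R hR (Pi.single s 1 + Pi.single s' 1) hσa hσb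
      simp only [← add_assoc] at ht
      rw [ht]

/-- The restricted reverse Cauchy-Schwarz inequality for the second-difference matrix of
the transfer. -/
theorem transfer_core (F : (ι → ℕ) → ℝ) (hF : LorF F) (γ : ι → ℕ) (a b : ι) (hab : a ≠ b)
    (v : ι → ℝ) (hva : v a = 0) (hvb : v b = 0) (y : ℝ) :
    hess (transfer a b F) γ a a
        * (y ^ 2 * hess (transfer a b F) γ b b
          + 2 * y * (∑ s, hess (transfer a b F) γ b s * v s)
          + ∑ s, ∑ s', v s * hess (transfer a b F) γ s s' * v s')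
      ≤ (y * hess (transfer a b F) γ a b + ∑ s, hess (transfer a b F) γ a s * v s) ^ 2 := by
  have hL := line_Lor F hF γ a b hab v (γ a + γ b)
  have hS := Lor_step hL (γ a + γ b + 2) 0
  obtain ⟨_, _, _, _, hmain⟩ := hS
  have hlev : ((γ b : ℕ) : ℤ) ≤ ((γ a + γ b + 2 + (γ a + γ b + 2) : ℕ) : ℤ) := by
    exact_mod_cast (by omega : γ b ≤ γ a + γ b + 2 + (γ a + γ b + 2))
  have hform := hmain ((γ b : ℕ) : ℤ) (Int.natCast_nonneg _) hlev y 1
  have c1 : (((γ b : ℕ) : ℤ) + 1) = ((γ b + 1 : ℕ) : ℤ) := by push_cast; ring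
  have c2 : (((γ b : ℕ) : ℤ) + 2) = ((γ b + 2 : ℕ) : ℤ) := by push_cast; ring
  rw [c1, c2] at hform
  rw [addW_eq F γ a b hab (γ a + γ b + 2) (γ b) (by omega),
    addW_eq F γ a b hab (γ a + γ b + 2) (γ b + 1) (by omega),
    addW_eq F γ a b hab (γ a + γ b + 2) (γ b + 2) (by omega),
    addL_eq F γ a b hab v hva hvb (γ a + γ b + 2) (γ a + γ b + 1) (γ b) (by omega) (by omega),
    addL_eq F γ a b hab v hva hvb (γ a + γ b + 2) (γ a + γ b + 1) (γ b + 1) (by omega)
      (by omega),
    addQ_eq F γ a b hab v hva hvb (γ a + γ b + 2) (γ a + γ b) (γ b) (by omega) (by omega)]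
    at hform
  -- the points
  have e0 := lpt_self γ a b hab
  have e1 : γ + Pi.single a 1 = lpt γ a b (γ a + γ b + 1) (γ b) := by
    have := lpt_add_a γ a b hab (γ a + γ b) (γ b) (by omega)
    rwa [e0] at this
  have e2 : γ + Pi.single b 1 = lpt γ a b (γ a + γ b + 1) (γ b + 1) := by
    have := lpt_add_b γ a b hab (γ a + γ b) (γ b) (by omega)
    rwa [e0] at this
  have e3 : γ + Pi.single a 1 + Pi.single a 1 = lpt γ a b (γ a + γ b + 2) (γ b) := by
    rw [e1]; exact lpt_add_a γ a b hab (γ a + γ b + 1) (γ b) (by omega)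
  have e4 : γ + Pi.single a 1 + Pi.single b 1 = lpt γ a b (γ a + γ b + 2) (γ b + 1) := by
    rw [e1]; exact lpt_add_b γ a b hab (γ a + γ b + 1) (γ b) (by omega)
  have e5 : γ + Pi.single b 1 + Pi.single b 1 = lpt γ a b (γ a + γ b + 2) (γ b + 2) := by
    rw [e2]; exact lpt_add_b γ a b hab (γ a + γ b + 1) (γ b + 1) (by omega)
  have hAaa : hess (transfer a b F) γ a a
      = transfer a b F (lpt γ a b (γ a + γ b + 2) (γ b)) := by
    unfold hess; rw [e3]
  have hAab : hess (transfer a b F) γ a b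
      = transfer a b F (lpt γ a b (γ a + γ b + 2) (γ b + 1)) := by
    unfold hess; rw [e4]
  have hAbb : hess (transfer a b F) γ b b
      = transfer a b F (lpt γ a b (γ a + γ b + 2) (γ b + 2)) := by
    unfold hess; rw [e5]
  have hAas : ∑ s, hess (transfer a b F) γ a s * v s
      = ∑ s, v s * transfer a b F (lpt γ a b (γ a + γ b + 1) (γ b) + Pi.single s 1) := by
    refine Finset.sum_congr rfl (fun s _ => ?_)
    unfold hess; rw [e1, mul_comm]
  have hAbs : ∑ s, hess (transfer a b F) γ b s * v s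
      = ∑ s, v s * transfer a b F (lpt γ a b (γ a + γ b + 1) (γ b + 1) + Pi.single s 1) := by
    refine Finset.sum_congr rfl (fun s _ => ?_)
    unfold hess; rw [e2, mul_comm]
  have hAvv : ∑ s, ∑ s', v s * hess (transfer a b F) γ s s' * v s'
      = ∑ s, ∑ s', v s * v s'
          * transfer a b F (lpt γ a b (γ a + γ b) (γ b) + Pi.single s 1 + Pi.single s' 1) := by
    refine Finset.sum_congr rfl (fun s _ => Finset.sum_congr rfl (fun s' _ => ?_))
    unfold hess; rw [e0]; ring
  rw [hAaa, hAab, hAbb, hAas, hAbs, hAvv]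
  nlinarith [hform]

/-- `LorF` is preserved by the transfer along `e_b - e_a`. -/
theorem lorF_transfer (a b : ι) (hab : a ≠ b) (F : (ι → ℕ) → ℝ) (hF : LorF F) :
    LorF (transfer a b F) := by
  have hTpos : ∀ p, 0 < transfer a b F p := by
    intro p
    unfold transfer
    apply Finset.sum_pos
    · intro k _
      exact hF.1 _
    · exact ⟨0, Finset.mem_range.mpr (Nat.succ_pos _)⟩
  refine ⟨hTpos, fun γ => ?_⟩
  apply onePos_of_rcs (hess_symm _ _) (Pi.single a 1)
  · rw [bil_single_single]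
    exact hTpos _
  · exact rcs_of_core _ (hess_symm _ _) a b hab
      (fun v hva hvb y => transfer_core F hF γ a b hab v hva hvb y)

end Core

end Vale.Agent.Lib.P328.helper60
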